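import Vale.Agent.P284.H383.Tr.Rado1
import Vale.Agent.P272.GEO.Osgood
import Mathlib.Topology.Baire.Lemmas
import Mathlib.Topology.Baire.CompleteMetrizable
import Mathlib.Analysis.Complex.LocallyUniformLimit

/-!
# P284 (helper383), T1': a theorem of Radó type in several variables
-/

open scoped Topology
open Filter Set Metric

noncomputable section

namespace Vale.Agent.P284.H383.Tr

/-- **Radó's theorem.** `f` and `P` continuous on `O ⊂ ℂⁿ`, holomorphic at the points where `P ≠ 0`,
and these points are dense in `O`: then `f` is holomorphic on `O`. -/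
theorem rado {n : ℕ} {O : Set (Fin n → ℂ)} (hO : IsOpen O) {f P : (Fin n → ℂ) → ℂ}
    (hf : ContinuousOn f O) (hP : ContinuousOn P O)
    (hfd : ∀ x ∈ O, P x ≠ 0 → DifferentiableAt ℂ f x)
    (hPd : ∀ x ∈ O, P x ≠ 0 → DifferentiableAt ℂ P x)
    (hden : O ⊆ closure {x | x ∈ O ∧ P x ≠ 0}) : DifferentiableOn ℂ f O := by
  refine Vale.Agent.P272.GEO.osgood hO hf fun x hx i => ?_
  obtain ⟨R₀, hR₀, hR₀b⟩ := Metric.isOpen_iff.1 hO x hx
  set r : ℝ := R₀ / 4 with hr
  have hr0 : 0 < r := by positivity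
  set e : Fin n → ℂ := Pi.single i 1 with he
  have hen : ‖e‖ = 1 := by rw [he, Pi.norm_single]; simp
  have hin : ∀ y ∈ closedBall x r, ∀ s ∈ closedBall (0 : ℂ) r, y + s • e ∈ closedBall x (2 * r) := by
    intro y hy s hs
    rw [mem_closedBall, dist_eq_norm] at hy ⊢
    rw [mem_closedBall_zero_iff] at hs
    have h1 : y + s • e - x = (y - x) + s • e := by abel
    rw [h1]
    calc ‖(y - x) + s • e‖ ≤ ‖y - x‖ + ‖s • e‖ := norm_add_le _ _
      _ ≤ r + r := by rw [norm_smul, hen, mul_one]; linarith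
      _ = 2 * r := by ring
  have hRO : closedBall x (2 * r) ⊆ O := by
    refine (closedBall_subset_ball ?_).trans hR₀b
    rw [hr]; linarith
  have hinO : ∀ y ∈ closedBall x r, ∀ s ∈ closedBall (0 : ℂ) r, y + s • e ∈ O :=
    fun y hy s hs => hRO (hin y hy s hs)
  -- the bad slices
  set B : Set (Set ℂ) := {U | U ∈ TopologicalSpace.countableBasis ℂ ∧ U ⊆ ball 0 r ∧ U.Nonempty}
    with hB
  have hBc : B.Countable := (TopologicalSpace.countable_countableBasis ℂ).mono fun U h => h.1
  set F : Set ℂ → Set (Fin n → ℂ) := fun U => {y | y ∈ closedBall x r ∧ ∀ s ∈ U, P (y + s • e) = 0}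
    with hF
  have hFclosed : ∀ U ∈ B, IsClosed (F U) := by
    intro U hU
    have h1 : F U = ⋂ s ∈ U, {y | y ∈ closedBall x r ∧ P (y + s • e) = 0} := by
      ext y
      simp only [hF, mem_ofPred_eq, mem_iInter]
      constructor
      · rintro ⟨h1, h2⟩ s hs
        exact ⟨h1, h2 s hs⟩
      · intro h
        obtain ⟨s₀, hs₀⟩ := hU.2.2
        exact ⟨(h s₀ hs₀).1, fun s hs => (h s hs).2⟩
    rw [h1]
    refine isClosed_biInter fun s hs => ?_
    have hs' : s ∈ closedBall (0 : ℂ) r := ball_subset_closedBall (hU.2.1 hs)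
    have hc : ContinuousOn (fun y => P (y + s • e)) (closedBall x r) :=
      hP.comp (continuous_id.add continuous_const).continuousOn fun y hy => hinO y hy s hs'
    have := hc.preimage_isClosed_of_isClosed isClosed_closedBall (isClosed_singleton (x := (0 : ℂ)))
    exact this
  have hFint : ∀ U ∈ B, Dense (F U)ᶜ := by
    intro U hU
    rw [← interior_eq_empty_iff_dense_compl]
    by_contra hne
    obtain ⟨y₀, hy₀⟩ := nonempty_iff_ne_empty.2 hne
    obtain ⟨s₀, hs₀⟩ := hU.2.2
    have hs₀' : s₀ ∈ closedBall (0 : ℂ) r := ball_subset_closedBall (hU.2.1 hs₀)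
    have hz₀ : y₀ + s₀ • e ∈ O := hinO y₀ (interior_subset hy₀).1 s₀ hs₀'
    have hopen : IsOpen ((fun z => z - s₀ • e) ⁻¹' interior (F U)) :=
      isOpen_interior.preimage (continuous_id.sub continuous_const)
    obtain ⟨z, hz1, hz2⟩ := _root_.mem_closure_iff.1 (hden hz₀) _ hopen (by
      show y₀ + s₀ • e - s₀ • e ∈ interior (F U)
      rw [add_sub_cancel_right]; exact hy₀)
    have h1 : z - s₀ • e ∈ F U := interior_subset hz1
    have h2 := h1.2 s₀ hs₀
    rw [sub_add_cancel] at h2
    exact hz2.2 h2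
  have hgood : Dense (⋂ U ∈ B, (F U)ᶜ) :=
    dense_biInter_of_isOpen (fun U hU => (hFclosed U hU).isOpen_compl) hBc hFint
  -- good slices
  have hslice : ∀ y ∈ closedBall x r, y ∈ ⋂ U ∈ B, (F U)ᶜ →
      DifferentiableOn ℂ (fun s : ℂ => f (y + s • e)) (ball 0 r) := by
    intro y hy hyg
    have hlin : Differentiable ℂ fun s : ℂ => y + s • e :=
      fun s => (differentiableAt_id.smul_const e).const_add y
    have hmaps : MapsTo (fun s : ℂ => y + s • e) (closedBall 0 r) O := fun s hs => hinO y hy s hs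
    refine rado_disc (P := fun s : ℂ => P (y + s • e)) hr0 (hf.comp hlin.continuous.continuousOn hmaps)
      (hP.comp hlin.continuous.continuousOn hmaps) ?_ ?_ ?_
    · intro s hs hps
      exact DifferentiableAt.comp s (hfd _ (hmaps (ball_subset_closedBall hs)) hps) (hlin s)
    · intro s hs hps
      exact DifferentiableAt.comp s (hPd _ (hmaps (ball_subset_closedBall hs)) hps) (hlin s)
    · intro s hs
      rw [_root_.mem_closure_iff]
      intro o ho hso
      obtain ⟨U, hU, hsU, hUo⟩ := (TopologicalSpace.isBasis_countableBasis ℂ).exists_subset_of_mem_open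
        (show s ∈ o ∩ ball 0 r from ⟨hso, hs⟩) (ho.inter isOpen_ball)
      have hUB : U ∈ B := ⟨hU, fun z hz => (hUo hz).2, ⟨s, hsU⟩⟩
      have h1 : y ∉ F U := by
        have := mem_iInter₂.1 hyg U hUB
        exact this
      have h2 : ∃ z ∈ U, P (y + z • e) ≠ 0 := by
        by_contra hcon
        push Not at hcon
        exact h1 ⟨hy, hcon⟩
      obtain ⟨z, hz, hPz⟩ := h2
      exact ⟨z, (hUo hz).1, (hUo hz).2, hPz⟩
  -- a sequence of good slices
  have hseq : ∀ k : ℕ, ∃ y ∈ closedBall x r, y ∈ ⋂ U ∈ B, (F U)ᶜ ∧ dist y x < 1 / (k + 1 : ℝ) := by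
    intro k
    have hpos : 0 < min r (1 / (k + 1 : ℝ)) := lt_min hr0 (by positivity)
    obtain ⟨y, hy1, hy2⟩ := hgood.exists_mem_open isOpen_ball
      (show (ball x (min r (1 / (k + 1 : ℝ)))).Nonempty from ⟨x, mem_ball_self hpos⟩)
    have h2 : dist y x < min r (1 / (k + 1 : ℝ)) := hy2
    exact ⟨y, (h2.trans_le (min_le_left _ _)).le, hy1, h2.trans_le (min_le_right _ _)⟩
  choose y hy1 hy2 hy3 using hseq
  have huc : UniformContinuousOn f (closedBall x (2 * r)) :=
    (isCompact_closedBall x (2 * r)).uniformContinuousOn_of_continuous (hf.mono hRO)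
  have hunif : TendstoUniformlyOn (fun k : ℕ => fun s : ℂ => f (y k + s • e))
      (fun s => f (x + s • e)) atTop (ball (0 : ℂ) r) := by
    rw [Metric.tendstoUniformlyOn_iff]
    intro ε hε
    obtain ⟨δ, hδ, hδf⟩ := Metric.uniformContinuousOn_iff.1 huc ε hε
    obtain ⟨k₀, hk₀⟩ := exists_nat_one_div_lt hδ
    filter_upwards [eventually_ge_atTop k₀] with k hk s hs
    have hs' : s ∈ closedBall (0 : ℂ) r := ball_subset_closedBall hs
    refine hδf _ (hin x (mem_closedBall_self hr0.le) s hs') _ (hin (y k) (hy1 k) s hs') ?_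
    rw [dist_comm, dist_add_right]
    refine (hy3 k).trans (lt_of_le_of_lt ?_ hk₀)
    have : (k₀ : ℝ) ≤ k := by exact_mod_cast hk
    exact one_div_le_one_div_of_le (by positivity) (by linarith)
  have hlim : DifferentiableOn ℂ (fun s : ℂ => f (x + s • e)) (ball 0 r) :=
    hunif.tendstoLocallyUniformlyOn.differentiableOn
      (Eventually.of_forall fun k => hslice (y k) (hy1 k) (hy2 k)) isOpen_ball
  have h0 : DifferentiableAt ℂ (fun s : ℂ => f (x + s • e)) 0 :=
    hlim.differentiableAt (isOpen_ball.mem_nhds (mem_ball_self hr0))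
  have h4 : DifferentiableAt ℂ (fun τ : ℂ => τ - x i) (x i) := by fun_prop
  have h5 : DifferentiableAt ℂ (fun s : ℂ => f (x + s • e)) ((fun τ : ℂ => τ - x i) (x i)) := by
    simpa using h0
  have h6 := DifferentiableAt.comp (g := fun s : ℂ => f (x + s • e))
    (f := fun τ : ℂ => τ - x i) (x i) h5 h4
  have h7 : (fun τ : ℂ => f (Function.update x i τ)) =
      (fun s : ℂ => f (x + s • e)) ∘ fun τ : ℂ => τ - x i := by
    funext τ
    simp only [Function.comp_apply]
    congr 1
    funext j
    by_cases hj : j = i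
    · subst hj; simp [he]
    · simp [he, hj]
  rw [h7]
  exact h6

end Vale.Agent.P284.H383.Tr
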