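import Vale.Agent.P284.H383.Tr.Br3
import Vale.Agent.P284.H383.Tr.Rado2
import Vale.Agent.P284.H812.KO1

/-!
# P284 (helper383), TR: the trace of a section is holomorphic

`trStmt : Vale.Agent.P284.H837.TrStmt`.  The trace is continuous, and holomorphic off the zeros of
the continuous function `nrm`; Rado's theorem.
-/

open scoped Manifold ContDiff Topology ComplexOrder
open Filter Set Metric

set_option linter.all false

noncomputable section

namespace Vale.Agent.P284.H383.Tr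

open Vale.Agent.P272.K Vale.Agent.P272.KOD Vale.Agent.P284.H812 Vale.Agent.P284.H451
  Vale.Agent.P284.H837

lemma ev_mul_zero {n : ℕ} {f g : Cm n → ℂ} {x : Cm n} (hf : AnalyticAt ℂ f x)
    (hg : AnalyticAt ℂ g x) (h : ∀ᶠ z in 𝓝 x, f z * g z = 0) :
    (∀ᶠ z in 𝓝 x, f z = 0) ∨ ∀ᶠ z in 𝓝 x, g z = 0 := by
  by_cases h2 : ∀ᶠ z in 𝓝 x, g z = 0
  · exact Or.inr h2
  left
  obtain ⟨r, hr, hball⟩ := Metric.eventually_nhds_iff_ball.1
    ((hf.eventually_analyticAt.and hg.eventually_analyticAt).and h)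
  have h3 : ∃ z ∈ ball x r, g z ≠ 0 := by
    by_contra hcon
    push Not at hcon
    exact h2 (by filter_upwards [ball_mem_nhds x hr] with z hz using hcon z hz)
  obtain ⟨z₀, hz₀, hgz⟩ := h3
  have h4 : f =ᶠ[𝓝 z₀] 0 := by
    filter_upwards [(hball z₀ hz₀).1.2.continuousAt.eventually_ne hgz,
      isOpen_ball.mem_nhds hz₀] with y hy hyb
    exact (mul_eq_zero.1 (hball y hyb).2).resolve_right hy
  have h5 := AnalyticOnNhd.eqOn_zero_of_preconnected_of_eventuallyEq_zero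
    (fun y hy => (hball y hy).1.1) (convex_ball x r).isPreconnected hz₀ h4
  filter_upwards [ball_mem_nhds x hr] with z hz using h5 hz

lemma ev_prod_zero {n : ℕ} {ι : Type*} (S : Finset ι) {h : ι → Cm n → ℂ} {x : Cm n}
    (ha : ∀ γ ∈ S, AnalyticAt ℂ (h γ) x) (h0 : ∀ᶠ z in 𝓝 x, ∏ γ ∈ S, h γ z = 0) :
    ∃ γ ∈ S, ∀ᶠ z in 𝓝 x, h γ z = 0 := by
  classical
  induction S using Finset.induction_on with
  | empty =>
    obtain ⟨z, hz⟩ := h0.exists
    simp at hz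
  | insert a S haS ih =>
    have h1 : ∀ᶠ z in 𝓝 x, h a z * ∏ γ ∈ S, h γ z = 0 := by
      filter_upwards [h0] with z hz
      rwa [Finset.prod_insert haS] at hz
    rcases ev_mul_zero (ha a (Finset.mem_insert_self a S))
      (Finset.analyticAt_fun_prod S fun γ hγ => ha γ (Finset.mem_insert_of_mem hγ)) h1 with h2 | h2
    · exact ⟨a, Finset.mem_insert_self a S, h2⟩
    · obtain ⟨γ, hγ, h3⟩ := ih (fun γ hγ => ha γ (Finset.mem_insert_of_mem hγ)) h2
      exact ⟨γ, Finset.mem_insert_of_mem hγ, h3⟩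

section
variable {n m k : ℕ} {Z : Type*} [TopologicalSpace Z] [ChartedSpace (Cm n) Z]
  [IsManifold 𝓘(ℂ, Cm n) ω Z] {H' : Type*} [NormedAddCommGroup H']
  {N w : Chart n Z → Cm n → ℝ} {V : Cm n → H'}

lemma fval_ne [ConnectedSpace Z] (hm : 1 ≤ m) (σ : PSec n k Z)
    (hσ : ∃ e x, At e x ∧ σ.coeff e (e x) ≠ 0) {e : Chart n Z} {f : Cm n → Cm n} {z : Cm n}
    (hb : IsBranch m N V z e f) (hV : V z ≠ 0) : ¬ ∀ᶠ y in 𝓝 z, fval σ y (qf e f) = 0 := by
  intro h0
  have hL := loc_of hb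
  have hd := det_ne_zero hm hb hV
  have hdc : ContinuousAt (fun y => (fderiv ℂ f y).det) z := (analyticAt_det hb.an).continuousAt
  have h1 : ∀ᶠ y in 𝓝 z, σ.coeff e (f y) = 0 := by
    filter_upwards [h0, hL.ev, hdc.eventually_ne hd] with y hy hyL hyd
    rw [fval_eq σ hyL] at hy
    exact (mul_eq_zero.1 hy).resolve_right (pow_ne_zero k hyd)
  set L := ContinuousLinearMap.toContinuousLinearEquivOfDetNeZero (fderiv ℂ f z) hd with hLdef
  have h2 : HasStrictFDerivAt f (L : Cm n →L[ℂ] Cm n) z := by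
    rw [hLdef, ContinuousLinearMap.coe_toContinuousLinearEquivOfDetNeZero]
    exact hb.an.hasStrictFDerivAt
  have h3 : map f (𝓝 z) = 𝓝 (f z) := h2.map_nhds_eq_of_equiv
  have h4 : ∀ᶠ y in 𝓝 (f z), σ.coeff e y = 0 := by
    rw [← h3, eventually_map]
    exact h1
  rw [← show e (qf e f z) = f z from e.right_inv hb.tgt] at h4
  obtain ⟨e', x', h', hne⟩ := hσ
  exact hne (H812.ident σ hL.at h4 h')

end

theorem trStmt : TrStmt := by
  intro n m hn hm Z _ _ _ _ _ _ w hw hpos H _ _ _ N hN hI H' _ _ _ V b₀ r₀ r₁ hr₀ hr₁ hV him G hG d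
    hle hden k σ C l hl hσ
  have hbb : ball b₀ r₀ ⊆ ball b₀ r₁ := ball_subset_ball hr₁.le
  have hV' : DifferentiableOn ℂ V (ball b₀ r₀) := hV.mono hbb
  have hV0 : ∀ b ∈ ball b₀ r₀, V b ≠ 0 := fun b hb => (him b (hbb hb)).1
  have hBo : IsOpen (ball b₀ r₀) := isOpen_ball
  have hfin : ∀ b ∈ ball b₀ r₀, (G b).Finite := fun b hb => Set.finite_of_encard_le_coe (hle b hb)
  have hev : ∀ b ∈ ball b₀ r₀, ∀ᶠ z in 𝓝 b, (G z).encard ≤ d := fun b hb => by
    filter_upwards [hBo.mem_nhds hb] with z hz using hle z hz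
  by_cases hne : ∃ e x, At e x ∧ σ.coeff e (e x) ≠ 0
  swap
  · push Not at hne
    have h0 : ∀ b ∈ ball b₀ r₀, trv G σ b = 0 := by
      intro b hb
      refine finsum_mem_eq_zero_of_forall_eq_zero fun g hg => ?_
      obtain ⟨e, f, hbr, rfl⟩ := hG.br b hb g hg
      show fval σ b (qf e f) = 0
      have hL := loc_of hbr
      have h1 := hne e _ hL.at
      rw [show e (qf e f b) = f b from e.right_inv hbr.tgt] at h1
      rw [fval_eq σ hL, h1, zero_mul]
    exact (differentiableOn_const (0 : ℂ)).congr h0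
  have hdat := fun b hb => exists_ptD hm hN hI hw σ hl hσ hBo hV' hV0 hG (b₁ := b) hb (hfin b hb)
  have hbd : ∀ b ∈ ball b₀ r₀, ∃ A : ℝ, 1 ≤ A ∧ ∀ᶠ z in 𝓝 b, ∀ g ∈ G z, ‖gval σ z g‖ ≤ A :=
    fun b hb => bdd_val hm hN hw σ hσ hBo hG hb
      (hV'.differentiableAt (hBo.mem_nhds hb)).continuousAt
  have hPd : ∀ x ∈ ball b₀ r₀, nrm G d σ x ≠ 0 →
      DifferentiableAt ℂ (trv G σ) x ∧ DifferentiableAt ℂ (nrm G d σ) x := by
    intro x hx hnx
    obtain ⟨E, F, hEF, P⟩ := hdat x hx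
    have hd : (G x).encard = d := by
      by_contra hcon
      exact hnx (nrm_eq_zero x hcon)
    exact P.diff (hev x hx) hd
  refine rado (P := nrm G d σ) hBo ?_ ?_ (fun x hx h => (hPd x hx h).1)
    (fun x hx h => (hPd x hx h).2) ?_
  · intro b hb
    obtain ⟨E, F, hEF, P⟩ := hdat b hb
    exact (P.cont (hev b hb)).continuousWithinAt
  · intro b hb
    obtain ⟨E, F, hEF, P⟩ := hdat b hb
    obtain ⟨A, hA, hAb⟩ := hbd b hb
    exact (P.nrm_cont (hev b hb) hA hAb).continuousWithinAt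
  · intro b hb
    rw [_root_.mem_closure_iff]
    intro U hU hbU
    obtain ⟨b', hb'U, hb'⟩ := _root_.mem_closure_iff.1 (hden hb) U hU hbU
    obtain ⟨E, F, hEF, P⟩ := hdat b' hb'.1
    have hnz : ¬ ∀ᶠ z in 𝓝 b', nrm G d σ z = 0 := by
      intro h0
      have h1 : ∀ᶠ z in 𝓝 b', ∏ γ ∈ (hfin b' hb'.1).toFinset, fval σ z (qf (E γ) (F γ)) = 0 := by
        filter_upwards [h0, P.full (hev b' hb'.1) hb'.2] with z hz1 hz2
        rw [← hz2.2.2, hz1]
      obtain ⟨γ, hγ, h2⟩ := ev_prod_zero _ P.an h1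
      exact fval_ne hm σ hne (hEF γ ((hfin b' hb'.1).mem_toFinset.1 hγ)) (hV0 b' hb'.1) h2
    have h3 : ∃ᶠ z in 𝓝 b', nrm G d σ z ≠ 0 := Filter.not_eventually.1 hnz
    obtain ⟨z, hz1, hz2⟩ := (h3.and_eventually ((hU.inter hBo).mem_nhds ⟨hb'U, hb'.1⟩)).exists
    exact ⟨z, hz2.1, hz2.2, hz1⟩

end Vale.Agent.P284.H383.Tr
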