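import Vale.Agent.P284.H812.Glob
import Vale.Agent.P284.H837.TrS

/-!
# P284 (helper383), TR: germs of branches, identity theorem, values of sections
-/

open scoped Manifold ContDiff Topology ComplexOrder
open Filter Set Metric

noncomputable section

namespace Vale.Agent.P284.H383.Tr

open Vale.Agent.P272.K Vale.Agent.P272.KOD Vale.Agent.P284.H812 Vale.Agent.P284.H451
  Vale.Agent.P284.H837

section
variable {n m k : ℕ} {Z : Type*} [TopologicalSpace Z] [ChartedSpace (Cm n) Z]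
  {H H' : Type*} [NormedAddCommGroup H] [InnerProductSpace ℂ H] [NormedAddCommGroup H']
  {N w : Chart n Z → Cm n → ℝ} {V : Cm n → H'}

/-- the map `e.symm ∘ f` -/
def qf (e : Chart n Z) (f : Cm n → Cm n) : Cm n → Z := fun z => e.symm (f z)

/-- `f` is analytic at `z` with value in the target of the chart `e` -/
structure Loc (e : Chart n Z) (f : Cm n → Cm n) (z : Cm n) : Prop where
  mem : e ∈ atlas (Cm n) Z
  tgt : f z ∈ e.target
  an : AnalyticAt ℂ f z

lemma Loc.at {e : Chart n Z} {f : Cm n → Cm n} {z : Cm n} (h : Loc e f z) : At e (qf e f z) :=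
  At.of_target h.mem h.tgt

lemma Loc.ev {e : Chart n Z} {f : Cm n → Cm n} {z : Cm n} (h : Loc e f z) :
    ∀ᶠ y in 𝓝 z, Loc e f y := by
  filter_upwards [h.an.eventually_analyticAt,
    h.an.continuousAt.eventually (e.open_target.mem_nhds h.tgt)] with y h1 h2
  exact ⟨h.mem, h2, h1⟩

lemma Loc.cont {e : Chart n Z} {f : Cm n → Cm n} {z : Cm n} (h : Loc e f z) :
    ContinuousAt (qf e f) z :=
  ContinuousAt.comp (e.symm.continuousAt h.tgt) h.an.continuousAt

lemma loc_of {e : Chart n Z} {f : Cm n → Cm n} {z : Cm n} (h : IsBranch m N V z e f) :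
    Loc e f z := ⟨h.mem, h.tgt, h.an⟩

lemma isBranch_ev {e : Chart n Z} {f : Cm n → Cm n} {z : Cm n} (h : IsBranch m N V z e f) :
    ∀ᶠ y in 𝓝 z, IsBranch m N V y e f := by
  filter_upwards [(loc_of h).ev, h.eq.eventually_nhds] with y h1 h2
  exact ⟨h1.mem, h1.tgt, h1.an, h2⟩

lemma det_ne_zero {e : Chart n Z} {f : Cm n → Cm n} {z : Cm n} (hm : 1 ≤ m)
    (h : IsBranch m N V z e f) (hV : V z ≠ 0) : (fderiv ℂ f z).det ≠ 0 := by
  intro h0
  have h1 := h.eq.self_of_nhds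
  rw [h0, norm_zero] at h1
  have h2 : ‖V z‖ ^ 2 = 0 := by
    rw [← h1]
    have : ((0 : ℝ) ^ 2) ^ m = 0 := by
      rw [← pow_mul]
      exact zero_pow (by omega)
    rw [this, mul_zero]
  exact hV (norm_eq_zero.1 (pow_eq_zero_iff two_ne_zero |>.1 h2))

variable [IsManifold 𝓘(ℂ, Cm n) ω Z]

/-- identity theorem -/
theorem ident [T2Space Z] {U : Set (Cm n)} (hU : IsOpen U) (hc : IsPreconnected U)
    {e e' : Chart n Z} {f f' : Cm n → Cm n} (h : ∀ z ∈ U, Loc e f z) (h' : ∀ z ∈ U, Loc e' f' z)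
    {z₀ : Cm n} (hz₀ : z₀ ∈ U) (heq : qf e f =ᶠ[𝓝 z₀] qf e' f') :
    ∀ z ∈ U, qf e f =ᶠ[𝓝 z] qf e' f' := by
  set A : Set (Cm n) := {z | qf e f =ᶠ[𝓝 z] qf e' f'} with hA
  have hAo : IsOpen A := isOpen_iff_mem_nhds.2 fun z hz => hz.eventually_nhds
  have hsub : U ⊆ A := by
    refine hc.subset_of_closure_inter_subset hAo ⟨z₀, hz₀, heq⟩ ?_
    rintro z₁ ⟨hcl, hz₁⟩
    have hfr : ∃ᶠ z in 𝓝 z₁, z ∈ A := mem_closure_iff_frequently.1 hcl
    have hL := h z₁ hz₁
    have hL' := h' z₁ hz₁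
    have hval : qf e f z₁ = qf e' f' z₁ := by
      by_contra hne
      have h1 : ∀ᶠ z in 𝓝 z₁, qf e f z ≠ qf e' f' z := by
        obtain ⟨u, v, hu, hv, hu1, hv1, huv⟩ := t2_separation hne
        filter_upwards [hL.cont.eventually (hu.mem_nhds hu1),
          hL'.cont.eventually (hv.mem_nhds hv1)] with z h2 h3 h4
        exact huv.le_bot ⟨h2, h4 ▸ h3⟩
      obtain ⟨z, hz1, hz2⟩ := (hfr.and_eventually h1).exists
      exact hz2 (hz1 : _ =ᶠ[𝓝 z] _).self_of_nhds
    have hat : At e (e'.symm (f' z₁)) := by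
      have := hL.at
      rw [hval] at this
      exact this
    have h2 := br_ev hL'.mem hL'.an hL'.tgt hat
    have hg : AnalyticAt ℂ (brT e' e f') z₁ := brT_analytic hL'.an hL'.at hL'.tgt hat
    obtain ⟨r, hr, hball⟩ := Metric.eventually_nhds_iff_ball.1
      (((hL.ev.and h2).and hg.eventually_analyticAt).and (hU.mem_nhds hz₁))
    obtain ⟨z₂, hz₂A, hz₂⟩ := (hfr.and_eventually (ball_mem_nhds z₁ hr)).exists
    have h3 : f =ᶠ[𝓝 z₂] brT e' e f' := by
      filter_upwards [(hz₂A : qf e f =ᶠ[𝓝 z₂] qf e' f'), isOpen_ball.mem_nhds hz₂] with y hy hyb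
      have h4 := (hball y hyb).1.1.1
      have : e (qf e f y) = f y := e.right_inv h4.tgt
      rw [← this, hy]
      rfl
    have h4 : EqOn f (brT e' e f') (ball z₁ r) :=
      AnalyticOnNhd.eqOn_of_preconnected_of_eventuallyEq (fun y hy => (hball y hy).1.1.1.an)
        (fun y hy => (hball y hy).1.2) (convex_ball z₁ r).isPreconnected hz₂ h3
    show qf e f =ᶠ[𝓝 z₁] qf e' f'
    filter_upwards [ball_mem_nhds z₁ hr] with y hy
    have h5 := (hball y hy).1.1.2
    show e.symm (f y) = e'.symm (f' y)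
    rw [h4 hy]
    exact e.left_inv h5.2.2.2.2
  intro z hz
  exact hsub hz

lemma fval_eq (σ : PSec n k Z) {e : Chart n Z} {f : Cm n → Cm n} {z : Cm n} (h : Loc e f z) :
    fval σ z (qf e f) = σ.coeff e (f z) * (fderiv ℂ f z).det ^ k := by
  set x := qf e f z with hx
  have h' : At (chartAt (Cm n) x) (e.symm (f z)) := at_chartAt x
  have h1 := brT_det h.an h.at h.tgt h'
  have h2 := σ.change e (chartAt (Cm n) x) _ h.at h'
  have e1 : e (qf e f z) = f z := e.right_inv h.tgt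
  rw [e1] at h2
  have e2 : fval σ z (qf e f) = σ.coeff (chartAt (Cm n) x) (chartAt (Cm n) x x) *
    (fderiv ℂ (brT e (chartAt (Cm n) x) f) z).det ^ k := rfl
  rw [e2, h1, h2, mul_pow, ← mul_assoc]
  rfl

end

end Vale.Agent.P284.H383.Tr
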