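import Vale.Agent.P284.H383.Tr.Br1

/-!
# P284 (helper383), TR: local structure of a family of branches
-/

open scoped Manifold ContDiff Topology ComplexOrder
open Filter Set Metric

set_option linter.all false

noncomputable section

namespace Vale.Agent.P284.H383.Tr

open Vale.Agent.P272.K Vale.Agent.P272.KOD Vale.Agent.P284.H812 Vale.Agent.P284.H451
  Vale.Agent.P284.H837

section
variable {n m k : ℕ} {Z : Type*} [TopologicalSpace Z] [ChartedSpace (Cm n) Z]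
  [IsManifold 𝓘(ℂ, Cm n) ω Z]
  {H H' : Type*} [NormedAddCommGroup H] [InnerProductSpace ℂ H]
  [NormedAddCommGroup H'] [InnerProductSpace ℂ H']
  {N w : Chart n Z → Cm n → ℝ} {V : Cm n → H'}

lemma fval_analytic (σ : PSec n k Z) {e : Chart n Z} {f : Cm n → Cm n} {z : Cm n}
    (h : Loc e f z) : AnalyticAt ℂ (fun y => fval σ y (qf e f)) z := by
  have h1 : AnalyticAt ℂ (σ.coeff e) (f z) := by
    have := σ.holo e _ h.at
    rwa [show e (qf e f z) = f z from e.right_inv h.tgt] at this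
  have h2 : AnalyticAt ℂ (fun y => σ.coeff e (f y) * (fderiv ℂ f y).det ^ k) z :=
    (h1.comp_of_eq h.an rfl).mul ((analyticAt_det h.an).pow k)
  refine h2.congr ?_
  filter_upwards [h.ev] with y hy
  exact (fval_eq σ hy).symm

lemma fval_bound (hN : HMet n m Z H N) (hw : IsCanonicalMetric w) (σ : PSec n k Z) {C : ℝ} {l : ℕ}
    (hσ : ∀ e x, At e x → (‖σ.coeff e (e x)‖ ^ 2) ^ m ≤
      C * N e (e x) ^ k * (N e (e x) * Real.exp (-(m : ℝ) * w e (e x))) ^ l)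
    {e : Chart n Z} {f : Cm n → Cm n} {z : Cm n} (hb : IsBranch m N V z e f) :
    (‖fval σ z (qf e f)‖ ^ 2) ^ m ≤ C * (‖V z‖ ^ 2) ^ k * ratio m N w (qf e f z) ^ l := by
  have hL := loc_of hb
  have e1 : e (qf e f z) = f z := e.right_inv hb.tgt
  have h1 := hσ e _ hL.at
  rw [ratio_eq hN.change hw hL.at, fval_eq σ hL, ← hb.eq.self_of_nhds]
  rw [e1] at h1 ⊢
  set D := ‖(fderiv ℂ f z).det‖ with hD
  have h2 : (‖σ.coeff e (f z) * (fderiv ℂ f z).det ^ k‖ ^ 2) ^ m =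
      (‖σ.coeff e (f z)‖ ^ 2) ^ m * ((D ^ 2) ^ m) ^ k := by
    rw [norm_mul, norm_pow, ← hD]; ring
  rw [h2]
  calc (‖σ.coeff e (f z)‖ ^ 2) ^ m * ((D ^ 2) ^ m) ^ k ≤
      (C * N e (f z) ^ k * (N e (f z) * Real.exp (-(m : ℝ) * w e (f z))) ^ l) *
        ((D ^ 2) ^ m) ^ k := mul_le_mul_of_nonneg_right h1 (by positivity)
    _ = _ := by rw [mul_pow (N e (f z)) ((D ^ 2) ^ m) k]; ring

lemma ratio_nonneg (hN : HMet n m Z H N) (x : Z) : 0 ≤ ratio m N w x :=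
  mul_nonneg (hN.nonneg (at_chartAt x)) (Real.exp_pos _).le

/-- the germ at `z` -/
def gq (e : Chart n Z) (f : Cm n → Cm n) (z : Cm n) : Germ (𝓝 z) Z := ((qf e f : Cm n → Z) :)

omit [IsManifold 𝓘(ℂ, Cm n) ω Z] in
lemma gq_eq_iff {e e' : Chart n Z} {f f' : Cm n → Cm n} {z : Cm n} :
    gq e f z = gq e' f' z ↔ qf e f =ᶠ[𝓝 z] qf e' f' := Germ.coe_eq

omit [IsManifold 𝓘(ℂ, Cm n) ω Z] in
@[simp] lemma gq_value {e : Chart n Z} {f : Cm n → Cm n} {z : Cm n} :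
    (gq e f z).value = qf e f z := rfl

omit [IsManifold 𝓘(ℂ, Cm n) ω Z] in
@[simp] lemma gval_gq (σ : PSec n k Z) {e : Chart n Z} {f : Cm n → Cm n} {z : Cm n} :
    gval σ z (gq e f z) = fval σ z (qf e f) := rfl

omit [IsManifold 𝓘(ℂ, Cm n) ω Z] in
lemma br_of {B : Set (Cm n)} {G : ∀ b : Cm n, Set (Germ (𝓝 b) Z)} (hG : BrFam m N V B G)
    {b : Cm n} (hb : b ∈ B) {γ : Germ (𝓝 b) Z} (hγ : γ ∈ G b) :
    ∃ (e : Chart n Z) (f : Cm n → Cm n), IsBranch m N V b e f ∧ γ = gq e f b := hG.br b hb γ hγ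

/-- nearby values of `V` are close, with a uniform radius -/
lemma near_V {B : Set (Cm n)} (hBo : IsOpen B) (hV : DifferentiableOn ℂ V B) {b₁ : Cm n}
    (hb₁ : b₁ ∈ B) (h0 : V b₁ ≠ 0) {κ : ℝ} (hκ : 0 < κ) :
    ∃ s > 0, ball b₁ (3 * s) ⊆ B ∧
      ∀ ζ ∈ ball b₁ s, ∀ z ∈ ball ζ (2 * s), ‖V z - V ζ‖ ≤ κ * ‖V ζ‖ := by
  have hc : ContinuousAt V b₁ := (hV.differentiableAt (hBo.mem_nhds hb₁)).continuousAt
  have hn : 0 < ‖V b₁‖ := norm_pos_iff.2 h0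
  set ε := κ * ‖V b₁‖ / (2 + κ) with hε
  have hε0 : 0 < ε := by positivity
  have h1 : ∀ᶠ z in 𝓝 b₁, z ∈ B ∧ ‖V z - V b₁‖ < ε := by
    have h2 := Metric.continuousAt_iff'.1 hc ε hε0
    filter_upwards [hBo.mem_nhds hb₁, h2] with z h3 h4
    exact ⟨h3, by rwa [dist_eq_norm] at h4⟩
  obtain ⟨r, hr, hball⟩ := Metric.eventually_nhds_iff_ball.1 h1
  refine ⟨r / 3, by positivity, ?_, ?_⟩
  · rw [show 3 * (r / 3) = r by ring]
    exact fun z hz => (hball z hz).1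
  · intro ζ hζ z hz
    have hζ' : ζ ∈ ball b₁ r := by
      rw [mem_ball] at hζ ⊢
      linarith
    have hz' : z ∈ ball b₁ r := by
      rw [mem_ball] at hζ hz ⊢
      have := dist_triangle z ζ b₁
      linarith
    have h3 := (hball _ hζ').2
    have h4 := (hball _ hz').2
    have h5 : ‖V b₁‖ - ε ≤ ‖V ζ‖ := by
      have := norm_sub_norm_le (V b₁) (V ζ)
      rw [norm_sub_rev] at this
      linarith
    have h6 : ‖V z - V ζ‖ ≤ 2 * ε := by
      have e1 : V z - V ζ = (V z - V b₁) - (V ζ - V b₁) := by abel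
      rw [e1]
      exact (norm_sub_le _ _).trans (by linarith)
    have h7 : ε * (2 + κ) = κ * ‖V b₁‖ := by
      rw [hε]; field_simp
    calc ‖V z - V ζ‖ ≤ 2 * ε := h6
      _ = κ * (‖V b₁‖ - ε) := by linarith
      _ ≤ κ * ‖V ζ‖ := by gcongr

/-- **local structure of the family of branches near `b₁`** -/
theorem local_struct [T2Space Z] [CompactSpace Z] [CompleteSpace H] [CompleteSpace H']
    (hN : HMet n m Z H N) (hI : HImm n Z H N) (hw : IsCanonicalMetric w)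
    {B : Set (Cm n)} (hBo : IsOpen B) (hV : DifferentiableOn ℂ V B) (hV0 : ∀ b ∈ B, V b ≠ 0)
    {G : ∀ b : Cm n, Set (Germ (𝓝 b) Z)} (hG : BrFam m N V B G) {b₁ : Cm n} (hb₁ : b₁ ∈ B)
    (hfin : (G b₁).Finite) :
    ∃ (E : Germ (𝓝 b₁) Z → Chart n Z) (F : Germ (𝓝 b₁) Z → Cm n → Cm n),
      (∀ γ ∈ G b₁, γ = gq (E γ) (F γ) b₁) ∧ ∃ s > 0, ball b₁ s ⊆ B ∧
      (∀ γ ∈ G b₁, ∀ z ∈ ball b₁ s, IsBranch m N V z (E γ) (F γ)) ∧
      (∀ γ ∈ G b₁, ∀ z ∈ ball b₁ s, gq (E γ) (F γ) z ∈ G z) ∧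
      (∀ z ∈ ball b₁ s, Set.InjOn (fun γ => gq (E γ) (F γ) z) (G b₁)) ∧
      (∀ c > 0, ∀ᶠ z in 𝓝 b₁, ∀ g ∈ G z, c ≤ ratio m N w g.value →
        ∃ γ ∈ G b₁, g = gq (E γ) (F γ) z) := by
  classical
  have hex : ∀ γ : Germ (𝓝 b₁) Z, ∃ p : Chart n Z × (Cm n → Cm n), γ ∈ G b₁ →
      IsBranch m N V b₁ p.1 p.2 ∧ γ = gq p.1 p.2 b₁ := by
    intro γ
    by_cases hγ : γ ∈ G b₁
    · obtain ⟨e, f, h1, h2⟩ := br_of hG hb₁ hγ
      exact ⟨(e, f), fun _ => ⟨h1, h2⟩⟩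
    · exact ⟨(chartAt (Cm n) γ.value, id), fun h => absurd h hγ⟩
  choose p hp using hex
  have hev : ∀ᶠ z in 𝓝 b₁, z ∈ B ∧ ∀ γ ∈ G b₁, IsBranch m N V z (p γ).1 (p γ).2 := by
    have h1 : ∀ᶠ z in 𝓝 b₁, z ∈ B := hBo.mem_nhds hb₁
    refine h1.and ?_
    rw [Filter.eventually_all_finite hfin]
    intro γ hγ
    exact isBranch_ev (hp γ hγ).1
  obtain ⟨s, hs, hball⟩ := Metric.eventually_nhds_iff_ball.1 hev
  refine ⟨fun γ => (p γ).1, fun γ => (p γ).2, fun γ hγ => (hp γ hγ).2, s, hs,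
    fun z hz => (hball z hz).1, fun γ hγ z hz => (hball z hz).2 γ hγ, ?_, ?_, ?_⟩
  · intro γ hγ z hz
    refine hG.cont b₁ s _ _ hs (fun z hz => (hball z hz).1) (fun z hz => (hball z hz).2 γ hγ) ?_ z hz
    have := (hp γ hγ).2
    have h2 : gq (p γ).1 (p γ).2 b₁ ∈ G b₁ := this ▸ hγ
    exact h2
  · intro z hz γ hγ γ' hγ' heq
    have h1 := gq_eq_iff.1 heq
    have h2 := ident isOpen_ball (convex_ball b₁ s).isPreconnected
      (fun y hy => loc_of ((hball y hy).2 γ hγ)) (fun y hy => loc_of ((hball y hy).2 γ' hγ')) hz h1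
      b₁ (mem_ball_self hs)
    rw [(hp γ hγ).2, (hp γ' hγ').2]
    exact gq_eq_iff.2 h2
  · intro c hc
    obtain ⟨κ, hκ, hext⟩ := ext_global hN hI hw hc H'
    obtain ⟨t, ht, htB, hκV⟩ := near_V hBo hV hb₁ (hV0 b₁ hb₁) hκ
    filter_upwards [ball_mem_nhds b₁ (lt_min hs ht)] with ζ hζ g hg hcg
    have hζs : ζ ∈ ball b₁ s := ball_subset_ball (min_le_left _ _) hζ
    have hζt : ζ ∈ ball b₁ t := ball_subset_ball (min_le_right _ _) hζ
    have hsub : ball ζ (2 * t) ⊆ ball b₁ (3 * t) := by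
      intro y hy
      rw [mem_ball] at hy hζt ⊢
      have := dist_triangle y ζ b₁
      linarith
    have hζB : ζ ∈ B := (hball ζ hζs).1
    obtain ⟨e, f, hbr, hge⟩ := br_of hG hζB hg
    have hrat : c ≤ N e (f ζ) * Real.exp (-(m : ℝ) * w e (f ζ)) := by
      have h1 := ratio_eq hN.change hw (loc_of hbr).at
      rw [hge, gq_value, h1, show e (qf e f ζ) = f ζ from e.right_inv hbr.tgt] at hcg
      exact hcg
    obtain ⟨e', F, hF1, hF2, hF3, hF4⟩ := hext V ζ (2 * t) e f (by positivity)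
      (hV.mono (hsub.trans htB)) hbr (hV0 ζ hζB) hrat (hκV ζ hζt)
    have hgF : gq e f ζ = gq e' F ζ := by
      rw [gq_eq_iff]
      filter_upwards [hF4, br_ev hbr.mem hbr.an hbr.tgt hF3] with y hy hy2
      show e.symm (f y) = e'.symm (F y)
      rw [hy]
      exact (e'.left_inv hy2.2.2.2.2).symm
    have hFG : gq e' F ζ ∈ G ζ := by rw [← hgF, ← hge]; exact hg
    have hall := hG.cont ζ (2 * t) e' F (by positivity) (hsub.trans htB) hF2 hFG
    have hb₁m : b₁ ∈ ball ζ (2 * t) := by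
      rw [mem_ball, dist_comm]
      rw [mem_ball] at hζt
      linarith
    have hγ : gq e' F b₁ ∈ G b₁ := hall b₁ hb₁m
    refine ⟨gq e' F b₁, hγ, ?_⟩
    set u := min s t with hu
    have hub : ball b₁ u ⊆ ball ζ (2 * t) := by
      intro y hy
      have hy' : y ∈ ball b₁ t := ball_subset_ball (min_le_right _ _) hy
      rw [mem_ball] at hy' hζt ⊢
      have := dist_triangle y b₁ ζ
      rw [dist_comm b₁ ζ] at this
      linarith
    have h2 := ident isOpen_ball (convex_ball b₁ u).isPreconnected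
      (fun y hy => loc_of (hF2 y (hub hy)))
      (fun y hy => loc_of ((hball y (ball_subset_ball (min_le_left _ _) hy)).2 _ hγ))
      (mem_ball_self (lt_min hs ht)) (gq_eq_iff.1 (hp _ hγ).2) ζ hζ
    rw [hge, hgF]
    exact gq_eq_iff.2 h2

end

end Vale.Agent.P284.H383.Tr
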