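import Vale.Agent.P284.H383.Tr.Br2

/-!
# P284 (helper383), TR: the trace and the norm near a point
-/

open scoped Manifold ContDiff Topology ComplexOrder
open Filter Set Metric

set_option linter.all false

noncomputable section

namespace Vale.Agent.P284.H383.Tr

open Vale.Agent.P272.K Vale.Agent.P272.KOD Vale.Agent.P284.H812 Vale.Agent.P284.H451
  Vale.Agent.P284.H837

section
variable {n m k : ℕ} {Z : Type*} [TopologicalSpace Z] [ChartedSpace (Cm n) Z]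
  [IsManifold 𝓘(ℂ, Cm n) ω Z]
  {H H' : Type*} [NormedAddCommGroup H] [InnerProductSpace ℂ H]
  [NormedAddCommGroup H'] [InnerProductSpace ℂ H']
  {N w : Chart n Z → Cm n → ℝ} {V : Cm n → H'}

/-- values of `σ` on germs with small ratio are small -/
lemma small_val (hm : 1 ≤ m) (hN : HMet n m Z H N) (hw : IsCanonicalMetric w) (σ : PSec n k Z)
    {C : ℝ} {l : ℕ} (hl : 1 ≤ l)
    (hσ : ∀ e x, At e x → (‖σ.coeff e (e x)‖ ^ 2) ^ m ≤
      C * N e (e x) ^ k * (N e (e x) * Real.exp (-(m : ℝ) * w e (e x))) ^ l)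
    {B : Set (Cm n)} (hBo : IsOpen B) {G : ∀ b : Cm n, Set (Germ (𝓝 b) Z)}
    (hG : BrFam m N V B G) {b₁ : Cm n} (hb₁ : b₁ ∈ B) (hc : ContinuousAt V b₁)
    {ε : ℝ} (hε : 0 < ε) :
    ∃ c > 0, ∀ᶠ z in 𝓝 b₁, ∀ g ∈ G z, ratio m N w g.value < c → ‖gval σ z g‖ < ε := by
  set R := ‖V b₁‖ + 1 with hR
  have hV : ∀ᶠ z in 𝓝 b₁, ‖V z‖ < R := hc.norm.eventually_lt_const (by rw [hR]; linarith)
  have h1 : Tendsto (fun c : ℝ => |C| * (R ^ 2) ^ k * c ^ l) (𝓝 0) (𝓝 0) := by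
    have h2 : ContinuousAt (fun c : ℝ => |C| * (R ^ 2) ^ k * c ^ l) 0 := by fun_prop
    have h3 := h2.tendsto
    simp only [ne_eq, show l ≠ 0 by omega, not_false_eq_true, zero_pow, mul_zero] at h3
    exact h3
  have h2 : ∀ᶠ c : ℝ in 𝓝 0, |C| * (R ^ 2) ^ k * c ^ l < (ε ^ 2) ^ m :=
    h1.eventually_lt_const (by positivity)
  obtain ⟨r, hr, hball⟩ := Metric.eventually_nhds_iff_ball.1 h2
  have h3 := hball (r / 2) (by rw [mem_ball, dist_zero_right, Real.norm_eq_abs, abs_of_pos (by positivity)]; linarith)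
  refine ⟨r / 2, by positivity, ?_⟩
  filter_upwards [hV, hBo.mem_nhds hb₁] with z hz hzB g hg hgc
  obtain ⟨e, f, hb, rfl⟩ := hG.br z hzB g hg
  have h4 := fval_bound hN hw σ hσ hb
  have h5 : 0 ≤ ratio m N w (qf e f z) := ratio_nonneg hN _
  have h6 : ratio m N w (qf e f z) < r / 2 := hgc
  have h7 : (‖fval σ z (qf e f)‖ ^ 2) ^ m < (ε ^ 2) ^ m := by
    refine (h4.trans ?_).trans_lt h3
    have h8 : 0 < R := by rw [hR]; positivity
    gcongr
    exact le_abs_self C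
  have h9 : ‖fval σ z (qf e f)‖ ^ 2 < ε ^ 2 := lt_of_pow_lt_pow_left₀ m (by positivity) h7
  exact lt_of_pow_lt_pow_left₀ 2 hε.le h9

/-- values of `σ` on germs are locally bounded -/
lemma bdd_val [CompactSpace Z] [Nonempty Z] (hm : 1 ≤ m) (hN : HMet n m Z H N)
    (hw : IsCanonicalMetric w) (σ : PSec n k Z) {C : ℝ} {l : ℕ}
    (hσ : ∀ e x, At e x → (‖σ.coeff e (e x)‖ ^ 2) ^ m ≤
      C * N e (e x) ^ k * (N e (e x) * Real.exp (-(m : ℝ) * w e (e x))) ^ l)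
    {B : Set (Cm n)} (hBo : IsOpen B) {G : ∀ b : Cm n, Set (Germ (𝓝 b) Z)}
    (hG : BrFam m N V B G) {b₁ : Cm n} (hb₁ : b₁ ∈ B) (hc : ContinuousAt V b₁) :
    ∃ A : ℝ, 1 ≤ A ∧ ∀ᶠ z in 𝓝 b₁, ∀ g ∈ G z, ‖gval σ z g‖ ≤ A := by
  set R := ‖V b₁‖ + 1 with hR
  have hV : ∀ᶠ z in 𝓝 b₁, ‖V z‖ < R := hc.norm.eventually_lt_const (by rw [hR]; linarith)
  obtain ⟨x₀, -, hx₀⟩ := isCompact_univ.exists_isMaxOn (univ_nonempty (α := Z))
    (continuous_ratio hN hw).continuousOn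
  set ρ := ratio m N w x₀ with hρ
  have hρ0 : 0 ≤ ρ := ratio_nonneg hN _
  refine ⟨1 + |C| * (R ^ 2) ^ k * ρ ^ l, by
    have : 0 ≤ |C| * (R ^ 2) ^ k * ρ ^ l := by positivity
    linarith, ?_⟩
  set A := 1 + |C| * (R ^ 2) ^ k * ρ ^ l with hA
  have hA1 : 1 ≤ A := by
    have : 0 ≤ |C| * (R ^ 2) ^ k * ρ ^ l := by positivity
    linarith
  filter_upwards [hV, hBo.mem_nhds hb₁] with z hz hzB g hg
  obtain ⟨e, f, hb, rfl⟩ := hG.br z hzB g hg
  have h4 := fval_bound hN hw σ hσ hb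
  have h5 : 0 ≤ ratio m N w (qf e f z) := ratio_nonneg hN _
  have h6 : ratio m N w (qf e f z) ≤ ρ := hx₀ (mem_univ _)
  have h7 : (‖fval σ z (qf e f)‖ ^ 2) ^ m ≤ (A ^ 2) ^ m := by
    refine h4.trans ?_
    have h8 : 0 < R := by rw [hR]; positivity
    calc C * (‖V z‖ ^ 2) ^ k * ratio m N w (qf e f z) ^ l ≤ |C| * (R ^ 2) ^ k * ρ ^ l := by
          gcongr
          exact le_abs_self C
      _ ≤ A := by linarith
      _ ≤ (A ^ 2) ^ m := by
        rw [← pow_mul]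
        exact le_self_pow₀ hA1 (by omega)
  have h9 : ‖fval σ z (qf e f)‖ ^ 2 ≤ A ^ 2 := le_of_pow_le_pow_left₀ (by omega) (by positivity) h7
  exact le_of_pow_le_pow_left₀ two_ne_zero (by linarith) h9

/-- the product of the values if there are exactly `d` of them -/
def nrm (G : ∀ b : Cm n, Set (Germ (𝓝 b) Z)) (d : ℕ) (σ : PSec n k Z) (b : Cm n) : ℂ := by
  classical
  exact if (G b).encard = d then ∏ᶠ g ∈ G b, gval σ b g else 0

/-- data at a point: everything that is needed from `local_struct` -/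
structure PtD (G : ∀ b : Cm n, Set (Germ (𝓝 b) Z)) (σ : PSec n k Z) (b₁ : Cm n)
    (S : Finset (Germ (𝓝 b₁) Z)) (h : Germ (𝓝 b₁) Z → Cm n → ℂ)
    (q : Germ (𝓝 b₁) Z → ∀ z : Cm n, Germ (𝓝 z) Z) : Prop where
  coe : (S : Set (Germ (𝓝 b₁) Z)) = G b₁
  an : ∀ γ ∈ S, AnalyticAt ℂ (h γ) b₁
  self : ∀ γ ∈ S, q γ b₁ = γ
  ev : ∀ᶠ z in 𝓝 b₁, (∀ γ ∈ S, q γ z ∈ G z ∧ gval σ z (q γ z) = h γ z) ∧
    Set.InjOn (fun γ => q γ z) S
  small : ∀ ε > 0, ∀ᶠ z in 𝓝 b₁, ∀ g ∈ G z, (∃ γ ∈ S, g = q γ z) ∨ ‖gval σ z g‖ < ε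

theorem exists_ptD [T2Space Z] [CompactSpace Z] [CompleteSpace H] [CompleteSpace H']
    (hm : 1 ≤ m) (hN : HMet n m Z H N) (hI : HImm n Z H N) (hw : IsCanonicalMetric w)
    (σ : PSec n k Z) {C : ℝ} {l : ℕ} (hl : 1 ≤ l)
    (hσ : ∀ e x, At e x → (‖σ.coeff e (e x)‖ ^ 2) ^ m ≤
      C * N e (e x) ^ k * (N e (e x) * Real.exp (-(m : ℝ) * w e (e x))) ^ l)
    {B : Set (Cm n)} (hBo : IsOpen B) (hV : DifferentiableOn ℂ V B) (hV0 : ∀ b ∈ B, V b ≠ 0)
    {G : ∀ b : Cm n, Set (Germ (𝓝 b) Z)} (hG : BrFam m N V B G) {b₁ : Cm n} (hb₁ : b₁ ∈ B)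
    (hfin : (G b₁).Finite) :
    ∃ (E : Germ (𝓝 b₁) Z → Chart n Z) (F : Germ (𝓝 b₁) Z → Cm n → Cm n),
      (∀ γ ∈ G b₁, IsBranch m N V b₁ (E γ) (F γ)) ∧
      PtD G σ b₁ hfin.toFinset (fun γ z => fval σ z (qf (E γ) (F γ)))
        (fun γ z => gq (E γ) (F γ) z) := by
  obtain ⟨E, F, h1, s, hs, hsB, h2, h3, h4, h5⟩ := local_struct hN hI hw hBo hV hV0 hG hb₁ hfin
  have hb₁s : b₁ ∈ ball b₁ s := mem_ball_self hs
  refine ⟨E, F, fun γ hγ => h2 γ hγ b₁ hb₁s, ⟨by simp, ?_, ?_, ?_, ?_⟩⟩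
  · intro γ hγ
    rw [Set.Finite.mem_toFinset] at hγ
    exact fval_analytic σ (loc_of (h2 γ hγ b₁ hb₁s))
  · intro γ hγ
    rw [Set.Finite.mem_toFinset] at hγ
    exact (h1 γ hγ).symm
  · filter_upwards [ball_mem_nhds b₁ hs] with z hz
    refine ⟨fun γ hγ => ⟨h3 γ (hfin.mem_toFinset.1 hγ) z hz, rfl⟩, ?_⟩
    rw [Set.Finite.coe_toFinset]
    exact h4 z hz
  · intro ε hε
    have hc : ContinuousAt V b₁ := (hV.differentiableAt (hBo.mem_nhds hb₁)).continuousAt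
    obtain ⟨c, hc0, hsm⟩ := small_val hm hN hw σ hl hσ hBo hG hb₁ hc hε
    filter_upwards [hsm, h5 c hc0] with z hz1 hz2 g hg
    rcases lt_or_ge (ratio m N w g.value) c with h | h
    · exact Or.inr (hz1 g hg h)
    · obtain ⟨γ, hγ, hgγ⟩ := hz2 g hg h
      exact Or.inl ⟨γ, hfin.mem_toFinset.2 hγ, hgγ⟩

end

section
variable {n k : ℕ} {Z : Type*} [TopologicalSpace Z] [ChartedSpace (Cm n) Z]
  {G : ∀ b : Cm n, Set (Germ (𝓝 b) Z)} {σ : PSec n k Z} {b₁ : Cm n}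
  {S : Finset (Germ (𝓝 b₁) Z)} {h : Germ (𝓝 b₁) Z → Cm n → ℂ}
  {q : Germ (𝓝 b₁) Z → ∀ z : Cm n, Germ (𝓝 z) Z}

lemma trv_eq (z : Cm n) (hz : (G z).Finite) : trv G σ z = ∑ g ∈ hz.toFinset, gval σ z g :=
  finsum_mem_eq_finite_toFinset_sum _ hz

lemma nrm_eq {d : ℕ} (z : Cm n) (hz : (G z).Finite) (hd : (G z).encard = d) :
    nrm G d σ z = ∏ g ∈ hz.toFinset, gval σ z g := by
  unfold nrm
  rw [if_pos hd]
  exact finprod_mem_eq_finite_toFinset_prod _ hz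

lemma nrm_eq_zero {d : ℕ} (z : Cm n) (hd : (G z).encard ≠ d) : nrm G d σ z = 0 := by
  unfold nrm
  rw [if_neg hd]

/-- the trace differs little from the sum over the germs at `b₁` -/
theorem PtD.trace (P : PtD G σ b₁ S h q) {d : ℕ} (hd : ∀ᶠ z in 𝓝 b₁, (G z).encard ≤ d) {ε : ℝ}
    (hε : 0 < ε) : ∀ᶠ z in 𝓝 b₁, ‖trv G σ z - ∑ γ ∈ S, h γ z‖ ≤ d * ε := by
  classical
  filter_upwards [P.ev, P.small ε hε, hd] with z hz1 hz2 hz3
  have hfin : (G z).Finite := Set.finite_of_encard_le_coe hz3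
  set I : Finset (Germ (𝓝 z) Z) := S.image (fun γ => q γ z) with hI
  have hsub : I ⊆ hfin.toFinset := by
    intro g hg
    obtain ⟨γ, hγ, rfl⟩ := Finset.mem_image.1 hg
    exact hfin.mem_toFinset.2 (hz1.1 γ hγ).1
  have h1 : ∑ g ∈ I, gval σ z g = ∑ γ ∈ S, h γ z := by
    rw [hI, Finset.sum_image (fun a ha b hb => hz1.2 ha hb)]
    exact Finset.sum_congr rfl fun γ hγ => (hz1.1 γ hγ).2
  rw [trv_eq z hfin, ← Finset.sum_sdiff hsub, h1, add_sub_cancel_right]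
  refine (norm_sum_le_of_le (f := fun g => gval σ z g) (n := fun _ => ε) _ ?_).trans ?_
  · intro g hg
    rw [Finset.mem_sdiff] at hg
    rcases hz2 g (hfin.mem_toFinset.1 hg.1) with ⟨γ, hγ, hgγ⟩ | h2
    · exact absurd (Finset.mem_image.2 ⟨γ, hγ, hgγ.symm⟩) hg.2
    · exact h2.le
  · rw [Finset.sum_const, nsmul_eq_mul]
    have h3 : (hfin.toFinset \ I).card ≤ d := by
      refine (Finset.card_le_card Finset.sdiff_subset).trans ?_
      have : (G z).encard = hfin.toFinset.card := by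
        rw [Set.Finite.encard_eq_coe_toFinset_card]
      rw [this] at hz3
      exact_mod_cast hz3
    gcongr

theorem PtD.trv_self (P : PtD G σ b₁ S h q) : trv G σ b₁ = ∑ γ ∈ S, h γ b₁ := by
  have hfin : (G b₁).Finite := by rw [← P.coe]; exact S.finite_toSet
  have hS : hfin.toFinset = S := by
    ext g
    rw [hfin.mem_toFinset, ← P.coe]
    rfl
  rw [trv_eq b₁ hfin, hS]
  refine Finset.sum_congr rfl fun γ hγ => ?_
  have h1 := (P.ev.self_of_nhds.1 γ hγ).2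
  rw [P.self γ hγ] at h1
  exact h1

theorem PtD.cont (P : PtD G σ b₁ S h q) {d : ℕ} (hd : ∀ᶠ z in 𝓝 b₁, (G z).encard ≤ d) :
    ContinuousAt (trv G σ) b₁ := by
  rw [Metric.continuousAt_iff']
  intro ε hε
  have hc : ContinuousAt (fun z => ∑ γ ∈ S, h γ z) b₁ := by
    apply tendsto_finset_sum
    exact fun γ hγ => (P.an γ hγ).continuousAt
  have h1 := Metric.continuousAt_iff'.1 hc (ε / 2) (by positivity)
  have h2 := P.trace hd (ε := ε / (2 * (d + 1))) (by positivity)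
  filter_upwards [h1, h2] with z hz1 hz2
  rw [P.trv_self, dist_eq_norm]
  rw [dist_eq_norm] at hz1
  have h3 : (d : ℝ) * (ε / (2 * (d + 1))) < ε / 2 := by
    rw [show (d : ℝ) * (ε / (2 * (d + 1))) = (d / (d + 1)) * (ε / 2) by field_simp]
    have : (d : ℝ) / (d + 1) < 1 := by
      rw [div_lt_one (by positivity)]; linarith
    nlinarith
  have e1 : trv G σ z - ∑ γ ∈ S, h γ b₁ = (trv G σ z - ∑ γ ∈ S, h γ z) +
      (∑ γ ∈ S, h γ z - ∑ γ ∈ S, h γ b₁) := by ring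
  rw [e1]
  calc _ ≤ ‖trv G σ z - ∑ γ ∈ S, h γ z‖ + ‖∑ γ ∈ S, h γ z - ∑ γ ∈ S, h γ b₁‖ := norm_add_le _ _
    _ < ε := by linarith

/-- where the number is maximal: all germs near `b₁` come from `b₁` -/
theorem PtD.full (P : PtD G σ b₁ S h q) {d : ℕ} (hd : ∀ᶠ z in 𝓝 b₁, (G z).encard ≤ d)
    (hb : (G b₁).encard = d) : ∀ᶠ z in 𝓝 b₁, (G z).encard = d ∧
      trv G σ z = ∑ γ ∈ S, h γ z ∧ nrm G d σ z = ∏ γ ∈ S, h γ z := by
  classical
  have hSd : S.card = d := by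
    rw [← P.coe, Set.encard_coe_eq_coe_finsetCard] at hb
    exact_mod_cast hb
  filter_upwards [P.ev, hd] with z hz1 hz3
  have hfin : (G z).Finite := Set.finite_of_encard_le_coe hz3
  set I : Finset (Germ (𝓝 z) Z) := S.image (fun γ => q γ z) with hI
  have hsub : I ⊆ hfin.toFinset := by
    intro g hg
    obtain ⟨γ, hγ, rfl⟩ := Finset.mem_image.1 hg
    exact hfin.mem_toFinset.2 (hz1.1 γ hγ).1
  have hcard : I.card = d := by
    rw [hI, Finset.card_image_of_injOn hz1.2, hSd]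
  have hen : (G z).encard = hfin.toFinset.card := by
    rw [Set.Finite.encard_eq_coe_toFinset_card]
  have hle : hfin.toFinset.card ≤ d := by
    rw [hen] at hz3
    exact_mod_cast hz3
  have heq : I = hfin.toFinset := Finset.eq_of_subset_of_card_le hsub (by omega)
  have hzd : (G z).encard = d := by rw [hen, ← heq, hcard]
  refine ⟨hzd, ?_, ?_⟩
  · rw [trv_eq z hfin, ← heq, hI, Finset.sum_image (fun a ha b hb => hz1.2 ha hb)]
    exact Finset.sum_congr rfl fun γ hγ => (hz1.1 γ hγ).2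
  · rw [nrm_eq z hfin hzd, ← heq, hI, Finset.prod_image (fun a ha b hb => hz1.2 ha hb)]
    exact Finset.prod_congr rfl fun γ hγ => (hz1.1 γ hγ).2

/-- where the number is not maximal: the norm is small near `b₁` -/
theorem PtD.nrm_small (P : PtD G σ b₁ S h q) {d : ℕ} (hd : ∀ᶠ z in 𝓝 b₁, (G z).encard ≤ d)
    (hb : (G b₁).encard ≠ d) {A : ℝ} (hA : 1 ≤ A)
    (hbd : ∀ᶠ z in 𝓝 b₁, ∀ g ∈ G z, ‖gval σ z g‖ ≤ A) {ε : ℝ} (hε : 0 < ε) :
    ∀ᶠ z in 𝓝 b₁, ‖nrm G d σ z‖ ≤ ε * A ^ d := by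
  classical
  have hSd : S.card < d := by
    have h1 : (G b₁).encard ≤ d := hd.self_of_nhds
    have h2 := lt_of_le_of_ne h1 hb
    rw [← P.coe, Set.encard_coe_eq_coe_finsetCard] at h2
    exact_mod_cast h2
  filter_upwards [P.ev, P.small ε hε, hd, hbd] with z hz1 hz2 hz3 hz4
  by_cases hzd : (G z).encard = d
  · have hfin : (G z).Finite := Set.finite_of_encard_le_coe hz3
    have hen : (G z).encard = hfin.toFinset.card := by
      rw [Set.Finite.encard_eq_coe_toFinset_card]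
    have hcd : hfin.toFinset.card = d := by
      rw [hen] at hzd
      exact_mod_cast hzd
    set I : Finset (Germ (𝓝 z) Z) := S.image (fun γ => q γ z) with hI
    have hcI : I.card < hfin.toFinset.card := by
      have h0 : I.card ≤ S.card := Finset.card_image_le
      exact h0.trans_lt (by rw [hcd]; exact hSd)
    obtain ⟨g, hg, hgI⟩ := Finset.exists_mem_notMem_of_card_lt_card hcI
    have hgs : ‖gval σ z g‖ ≤ ε := by
      rcases hz2 g (hfin.mem_toFinset.1 hg) with ⟨γ, hγ, hgγ⟩ | h2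
      · exact absurd (Finset.mem_image.2 ⟨γ, hγ, hgγ.symm⟩) hgI
      · exact h2.le
    rw [nrm_eq z hfin hzd, ← Finset.mul_prod_erase _ _ hg, norm_mul, norm_prod]
    have h3 : ∏ x ∈ hfin.toFinset.erase g, ‖gval σ z x‖ ≤ A ^ d := by
      calc ∏ x ∈ hfin.toFinset.erase g, ‖gval σ z x‖ ≤ ∏ x ∈ hfin.toFinset.erase g, A := by
            refine Finset.prod_le_prod (fun _ _ => norm_nonneg _) fun x hx => ?_
            exact hz4 x (hfin.mem_toFinset.1 (Finset.mem_of_mem_erase hx))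
        _ = A ^ (hfin.toFinset.erase g).card := by rw [Finset.prod_const]
        _ ≤ A ^ d := pow_le_pow_right₀ hA (by
            have := Finset.card_erase_le (s := hfin.toFinset) (a := g)
            omega)
    exact mul_le_mul hgs h3 (Finset.prod_nonneg fun _ _ => norm_nonneg _) hε.le
  · rw [nrm_eq_zero z hzd, norm_zero]
    positivity

theorem PtD.nrm_cont (P : PtD G σ b₁ S h q) {d : ℕ} (hd : ∀ᶠ z in 𝓝 b₁, (G z).encard ≤ d)
    {A : ℝ} (hA : 1 ≤ A) (hbd : ∀ᶠ z in 𝓝 b₁, ∀ g ∈ G z, ‖gval σ z g‖ ≤ A) :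
    ContinuousAt (nrm G d σ) b₁ := by
  by_cases hb : (G b₁).encard = d
  · have h1 : ContinuousAt (fun z => ∏ γ ∈ S, h γ z) b₁ := by
      apply tendsto_finset_prod
      exact fun γ hγ => (P.an γ hγ).continuousAt
    refine h1.congr ?_
    filter_upwards [P.full hd hb] with z hz
    exact hz.2.2.symm
  · rw [Metric.continuousAt_iff']
    intro ε hε
    have hA0 : 0 < A ^ d := by positivity
    filter_upwards [P.nrm_small hd hb hA hbd (ε := ε / (2 * A ^ d)) (by positivity)] with z hz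
    rw [nrm_eq_zero b₁ hb, dist_zero_right]
    refine hz.trans_lt ?_
    rw [div_mul_eq_mul_div, mul_div_mul_right _ _ hA0.ne']
    linarith

/-- both are differentiable where the number is maximal -/
theorem PtD.diff (P : PtD G σ b₁ S h q) {d : ℕ} (hd : ∀ᶠ z in 𝓝 b₁, (G z).encard ≤ d)
    (hb : (G b₁).encard = d) :
    DifferentiableAt ℂ (trv G σ) b₁ ∧ DifferentiableAt ℂ (nrm G d σ) b₁ := by
  have h0 := P.full hd hb
  constructor
  · have h1 : DifferentiableAt ℂ (fun z => ∑ γ ∈ S, h γ z) b₁ :=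
      DifferentiableAt.fun_sum fun γ hγ => (P.an γ hγ).differentiableAt
    refine h1.congr_of_eventuallyEq ?_
    filter_upwards [h0] with z hz
    exact hz.2.1
  · have h1 : DifferentiableAt ℂ (fun z => ∏ γ ∈ S, h γ z) b₁ :=
      (Finset.analyticAt_fun_prod S fun γ hγ => P.an γ hγ).differentiableAt
    refine h1.congr_of_eventuallyEq ?_
    filter_upwards [h0] with z hz
    exact hz.2.2

end

end Vale.Agent.P284.H383.Tr
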