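import Mathlib.Analysis.Complex.Poisson
import Mathlib.Analysis.Complex.AbsMax
import Mathlib.Analysis.Complex.OpenMapping
import Vale.Agent.P253.R2.H380.Touch

/-!
# P284 (helper383), T1': a theorem of Radó type on a disc

`f` and `P` are continuous on a closed disc and holomorphic at the points of the open disc where
`P ≠ 0`, and these points are dense.  Then `f` is holomorphic on the open disc.
-/

open scoped Topology
open Filter Set Metric Real

noncomputable section

namespace Vale.Agent.P284.H383.Tr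

local instance instTwoPi : Fact (0 < 2 * Real.pi) := Fact.mk Real.two_pi_pos

/-- real parts of polynomials are dense in the continuous functions on a circle -/
theorem exists_poly_approx {u : ℂ → ℝ} {r : ℝ} (hr : 0 < r) (hu : ContinuousOn u (sphere 0 r))
    {δ : ℝ} (hδ0 : 0 < δ) :
    ∃ h : Polynomial ℂ, ∀ z ∈ sphere (0 : ℂ) r, |u z - (h.eval z).re| < δ := by
  have hrc : (r : ℂ) ≠ 0 := by exact_mod_cast hr.ne'
  have hmem : ∀ θ : AddCircle (2 * Real.pi), r * (AddCircle.toCircle θ : ℂ) ∈ sphere (0 : ℂ) r := by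
    intro θ
    simp [abs_of_pos hr, Circle.norm_coe]
  set v : C(AddCircle (2 * Real.pi), ℂ) :=
    ⟨fun θ => ((u (r * (AddCircle.toCircle θ : ℂ)) : ℝ) : ℂ), by
      apply Complex.continuous_ofReal.comp
      apply hu.comp_continuous _ hmem
      have := AddCircle.continuous_toCircle (T := 2 * Real.pi)
      fun_prop⟩ with hv
  have hvcl : v ∈ (Submodule.span ℂ (range (@fourier (2 * Real.pi)))).topologicalClosure := by
    rw [span_fourier_closure_eq_top]
    trivial
  rw [← SetLike.mem_coe, Submodule.topologicalClosure_coe, Metric.mem_closure_iff] at hvcl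
  obtain ⟨p, hp, hpd⟩ := hvcl δ hδ0
  obtain ⟨h1, h2, hh⟩ := Vale.Agent.P253.R2.H380.span_fourier_poly p hp
  set h0 : Polynomial ℂ := h1 + h2 with hh0
  have hre : ∀ θ, (h0.eval (AddCircle.toCircle θ : ℂ)).re = (p θ).re := by
    intro θ
    rw [hh θ, hh0]
    simp
  set h : Polynomial ℂ := h0.comp (Polynomial.C ((r : ℂ)⁻¹) * Polynomial.X) with hhd
  refine ⟨h, fun z hz => ?_⟩
  have hz' : ‖(r : ℂ)⁻¹ * z‖ = 1 := by
    rw [norm_mul, norm_inv, Complex.norm_real, Real.norm_eq_abs, abs_of_pos hr,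
      mem_sphere_zero_iff_norm.1 hz]
    field_simp
  obtain ⟨θ, hθ⟩ : ∃ θ : AddCircle (2 * Real.pi),
      (AddCircle.toCircle θ : ℂ) = (r : ℂ)⁻¹ * z := by
    refine ⟨(((r : ℂ)⁻¹ * z).arg : ℝ), ?_⟩
    rw [AddCircle.toCircle_apply_mk, Circle.coe_exp]
    have h3 := Complex.norm_mul_exp_arg_mul_I ((r : ℂ)⁻¹ * z)
    rw [hz', Complex.ofReal_one, one_mul] at h3
    rw [div_self Real.two_pi_pos.ne', one_mul, h3]
  have hzθ : r * (AddCircle.toCircle θ : ℂ) = z := by
    rw [hθ]
    field_simp
  have e1 : (h.eval z).re = (p θ).re := by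
    rw [hhd, Polynomial.eval_comp]
    simp only [Polynomial.eval_mul, Polynomial.eval_C, Polynomial.eval_X]
    rw [← hθ, hre]
  have e2 : ‖v θ - p θ‖ < δ := by
    rw [← dist_eq_norm]
    exact lt_of_le_of_lt (ContinuousMap.dist_apply_le_dist θ) hpd
  have e3 : v θ = ((u z : ℝ) : ℂ) := by
    rw [hv]
    simp only [ContinuousMap.coe_mk]
    rw [hzθ]
  rw [e1]
  have e4 : |(v θ - p θ).re| ≤ ‖v θ - p θ‖ := Complex.abs_re_le_norm _
  rw [e3] at e4 e2
  simp only [Complex.sub_re, Complex.ofReal_re] at e4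
  linarith

/-- maximum principle for a continuous function which is holomorphic where it is nonzero -/
theorem max_principle {Φ : ℂ → ℂ} {r B : ℝ} (hr : 0 < r) (hΦ : ContinuousOn Φ (closedBall 0 r))
    (hd : ∀ z ∈ ball (0 : ℂ) r, Φ z ≠ 0 → ∀ᶠ y in 𝓝 z, DifferentiableAt ℂ Φ y)
    (hB : ∀ z ∈ sphere (0 : ℂ) r, ‖Φ z‖ ≤ B) : ∀ z ∈ closedBall (0 : ℂ) r, ‖Φ z‖ ≤ B := by
  obtain ⟨z₀, hz₀, hmax⟩ := (isCompact_closedBall (0 : ℂ) r).exists_isMaxOn
    (nonempty_closedBall.2 hr.le) hΦ.norm
  suffices h : ‖Φ z₀‖ ≤ B from fun z hz => (hmax hz).trans h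
  by_contra hcon
  push Not at hcon
  have hB0 : 0 ≤ B := by
    have h1 : (r : ℂ) ∈ sphere (0 : ℂ) r := by
      rw [mem_sphere_zero_iff_norm, Complex.norm_real, Real.norm_of_nonneg hr.le]
    exact (norm_nonneg _).trans (hB _ h1)
  set m : ℝ := ‖Φ z₀‖ with hm
  have hm0 : 0 < m := lt_of_le_of_lt hB0 hcon
  have hz₀b : z₀ ∈ ball (0 : ℂ) r := by
    rcases (mem_closedBall.1 hz₀).lt_or_eq with h | h
    · exact h
    · exact absurd (hB z₀ h) (not_le.2 hcon)
  -- the set where the maximum is attained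
  set S : Set ℂ := {z | z ∈ closedBall (0 : ℂ) r ∧ ‖Φ z‖ = m} with hS
  have hSc : IsClosed S := by
    have h1 : S = closedBall (0 : ℂ) r ∩ (fun z => ‖Φ z‖) ⁻¹' {m} := rfl
    rw [h1]
    exact hΦ.norm.preimage_isClosed_of_isClosed isClosed_closedBall isClosed_singleton
  have hpre : IsPreconnected (ball (0 : ℂ) r) := (convex_ball _ _).isPreconnected
  have hsub : ball (0 : ℂ) r ⊆ S := by
    have hne : (ball (0 : ℂ) r ∩ S).Nonempty := ⟨z₀, hz₀b, hz₀, rfl⟩
    refine (hpre.subset_of_closure_inter_subset (u := interior S) isOpen_interior ?_ ?_).trans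
      interior_subset
    · refine ⟨z₀, hz₀b, ?_⟩
      have hloc : IsLocalMax (norm ∘ Φ) z₀ := by
        filter_upwards [isOpen_ball.mem_nhds hz₀b] with y hy
        exact hmax (ball_subset_closedBall hy)
      have := Complex.norm_eventually_eq_of_isLocalMax
        (hd z₀ hz₀b (norm_pos_iff.1 hm0)) hloc
      rw [mem_interior_iff_mem_nhds]
      filter_upwards [this, isOpen_ball.mem_nhds hz₀b] with y hy hy2
      exact ⟨ball_subset_closedBall hy2, hy⟩
    · rintro z ⟨hz1, hz2⟩
      have hzS : z ∈ S := closure_minimal interior_subset hSc hz1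
      have hloc : IsLocalMax (norm ∘ Φ) z := by
        filter_upwards [isOpen_ball.mem_nhds hz2] with y hy
        show ‖Φ y‖ ≤ ‖Φ z‖
        rw [hzS.2]
        exact hmax (ball_subset_closedBall hy)
      have hne' : Φ z ≠ 0 := norm_pos_iff.1 (by rw [hzS.2]; exact hm0)
      have := Complex.norm_eventually_eq_of_isLocalMax (hd z hz2 hne') hloc
      rw [mem_interior_iff_mem_nhds]
      filter_upwards [this, isOpen_ball.mem_nhds hz2] with y hy hy2
      exact ⟨ball_subset_closedBall hy2, hy.trans hzS.2⟩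
  have hr' : (r : ℂ) ∈ closedBall (0 : ℂ) r := by
    rw [mem_closedBall_zero_iff, Complex.norm_real, Real.norm_of_nonneg hr.le]
  have h1 : (r : ℂ) ∈ S := by
    have h2 : (r : ℂ) ∈ closure (ball (0 : ℂ) r) := by
      rw [closure_ball _ hr.ne']; exact hr'
    exact closure_minimal hsub hSc h2
  have h3 : (r : ℂ) ∈ sphere (0 : ℂ) r := by
    rw [mem_sphere_zero_iff_norm, Complex.norm_real, Real.norm_of_nonneg hr.le]
  have := hB _ h3
  rw [h1.2] at this
  linarith

section
variable {f P : ℂ → ℂ} {r : ℝ}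

/-- comparison with a polynomial -/
theorem compare (hr : 0 < r) (hf : ContinuousOn f (closedBall 0 r))
    (hP : ContinuousOn P (closedBall 0 r))
    (hfd : ∀ z ∈ ball (0 : ℂ) r, P z ≠ 0 → DifferentiableAt ℂ f z)
    (hPd : ∀ z ∈ ball (0 : ℂ) r, P z ≠ 0 → DifferentiableAt ℂ P z) (h : Polynomial ℂ) {δ : ℝ}
    (hδ : ∀ z ∈ sphere (0 : ℂ) r, (f z).re - (h.eval z).re ≤ δ) :
    ∀ z ∈ ball (0 : ℂ) r, P z ≠ 0 → (f z).re - (h.eval z).re ≤ δ := by
  intro z hz hPz
  obtain ⟨M₀, hM₀⟩ := (isCompact_closedBall (0 : ℂ) r).exists_bound_of_continuousOn hP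
  set M : ℝ := |M₀| + 1 with hM
  have hM0 : 0 < M := by positivity
  have hPM : ∀ y ∈ closedBall (0 : ℂ) r, ‖P y‖ ≤ M := fun y hy =>
    (hM₀ y hy).trans (by rw [hM]; linarith [le_abs_self M₀])
  have key : ∀ N : ℕ, ‖P z‖ * Real.exp (N * ((f z).re - (h.eval z).re)) ≤ M * Real.exp (N * δ) := by
    intro N
    set Φ : ℂ → ℂ := fun y => P y * Complex.exp (N * (f y - h.eval y)) with hΦ
    have hΦn : ∀ y, ‖Φ y‖ = ‖P y‖ * Real.exp (N * ((f y).re - (h.eval y).re)) := by
      intro y
      rw [hΦ]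
      simp only [norm_mul, Complex.norm_exp]
      congr 2
      simp
    have hΦc : ContinuousOn Φ (closedBall 0 r) :=
      hP.mul ((continuousOn_const.mul (hf.sub h.continuous.continuousOn)).cexp)
    have hopen : ∀ y ∈ ball (0 : ℂ) r, P y ≠ 0 → ∀ᶠ x in 𝓝 y, x ∈ ball (0 : ℂ) r ∧ P x ≠ 0 := by
      intro y hy hPy
      have h1 : ContinuousAt P y :=
        hP.continuousAt (mem_of_superset (isOpen_ball.mem_nhds hy) ball_subset_closedBall)
      filter_upwards [isOpen_ball.mem_nhds hy, h1.eventually_ne hPy] with x h2 h3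
      exact ⟨h2, h3⟩
    have h1 := max_principle hr hΦc (B := M * Real.exp (N * δ)) (fun y hy hy0 => by
      have hPy : P y ≠ 0 := fun h0 => hy0 (by rw [hΦ]; simp [h0])
      filter_upwards [hopen y hy hPy] with x hx
      exact (hPd x hx.1 hx.2).mul
        ((((hfd x hx.1 hx.2).sub h.differentiable.differentiableAt).const_mul _).cexp))
      (fun y hy => by
        rw [hΦn]
        have h2 := hδ y hy
        refine mul_le_mul (hPM y (sphere_subset_closedBall hy)) (Real.exp_le_exp.2 ?_)
          (Real.exp_pos _).le hM0.le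
        exact mul_le_mul_of_nonneg_left h2 (Nat.cast_nonneg _)) z (ball_subset_closedBall hz)
    rw [hΦn] at h1
    exact h1
  by_contra hcon
  push Not at hcon
  set t : ℝ := (f z).re - (h.eval z).re - δ with ht
  have ht0 : 0 < t := by rw [ht]; linarith
  have hPz0 : 0 < ‖P z‖ := norm_pos_iff.2 hPz
  obtain ⟨N, hN⟩ := exists_nat_gt (M / (‖P z‖ * t))
  have h2 := key N
  have h3 : Real.exp (N * ((f z).re - (h.eval z).re)) = Real.exp (N * δ) * Real.exp (N * t) := by
    rw [← Real.exp_add]; congr 1; rw [ht]; ring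
  rw [h3] at h2
  have h4 : ‖P z‖ * Real.exp (N * t) ≤ M := by
    refine le_of_mul_le_mul_right ?_ (Real.exp_pos (N * δ))
    calc ‖P z‖ * Real.exp (N * t) * Real.exp (N * δ) =
        ‖P z‖ * (Real.exp (N * δ) * Real.exp (N * t)) := by ring
      _ ≤ _ := h2
  have h5 : N * t + 1 ≤ Real.exp (N * t) := Real.add_one_le_exp _
  rw [div_lt_iff₀ (by positivity)] at hN
  nlinarith

/-- the real part of `f` is the real part of a holomorphic function -/
theorem re_eq (hr : 0 < r) (hf : ContinuousOn f (closedBall 0 r))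
    (hP : ContinuousOn P (closedBall 0 r))
    (hfd : ∀ z ∈ ball (0 : ℂ) r, P z ≠ 0 → DifferentiableAt ℂ f z)
    (hPd : ∀ z ∈ ball (0 : ℂ) r, P z ≠ 0 → DifferentiableAt ℂ P z)
    (hden : ∀ z ∈ ball (0 : ℂ) r, z ∈ closure {y | y ∈ ball (0 : ℂ) r ∧ P y ≠ 0}) :
    ∃ A : ℂ → ℂ, DifferentiableOn ℂ A (ball 0 r) ∧ ∀ z ∈ ball (0 : ℂ) r, (f z).re = (A z).re := by
  set u : ℂ → ℝ := fun z => (f z).re with hu
  have huc : ContinuousOn u (closedBall 0 r) := Complex.continuous_re.comp_continuousOn hf
  have hus : ContinuousOn u (sphere 0 r) := huc.mono sphere_subset_closedBall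
  have hui : CircleIntegrable u 0 r := hus.circleIntegrable hr.le
  have huiC : CircleIntegrable (fun ζ => (u ζ : ℂ)) 0 r :=
    (Complex.continuous_ofReal.comp_continuousOn hus).circleIntegrable hr.le
  set A : ℂ → ℂ := fun w => circleAverage (fun ζ => herglotzRieszKernel 0 w ζ • (u ζ : ℂ)) 0 r with hA
  have hAd : DifferentiableOn ℂ A (ball 0 r) :=
    differentiableOn_circleAverage_herglotzRieszKernel_smul huiC
  refine ⟨A, hAd, ?_⟩
  -- the kernel is nonnegative with average one
  have hker0 : ∀ w ∈ ball (0 : ℂ) r, ∀ z ∈ sphere (0 : ℂ) r, 0 ≤ (Complex.re ∘ herglotzRieszKernel 0 w) z := by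
    intro w hw z hz
    rw [← poissonKernel_eq_re_herglotzRieszKernel, poissonKernel_def]
    rw [mem_sphere_zero_iff_norm] at hz
    rw [mem_ball_zero_iff] at hw
    refine div_nonneg ?_ (by positivity)
    rw [sub_zero, sub_zero, hz]
    have := norm_nonneg w
    nlinarith
  have hkerc : ∀ w ∈ ball (0 : ℂ) r, ContinuousOn (Complex.re ∘ herglotzRieszKernel 0 w) (sphere 0 r) := by
    intro w hw
    have := continuousOn_herglotzRieszKernel_sphere hw
    rw [abs_of_pos hr] at this
    exact Complex.continuous_re.comp_continuousOn this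
  have hker1 : ∀ w ∈ ball (0 : ℂ) r, circleAverage (Complex.re ∘ herglotzRieszKernel 0 w) 0 r = 1 := by
    intro w hw
    have h1 := DiffContOnCl.circleAverage_re_herglotzRieszKernel_smul (f := fun _ : ℂ => (1 : ℂ))
      (c := 0) (R := r) diffContOnCl_const hw
    have h2 : CircleIntegrable ((Complex.re ∘ herglotzRieszKernel 0 w) • fun _ : ℂ => (1 : ℂ)) 0 r :=
      ((hkerc w hw).smul continuousOn_const).circleIntegrable hr.le
    have h3 := Complex.reCLM.circleAverage_comp_comm h2
    rw [h1] at h3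
    have h4 : (⇑Complex.reCLM ∘ ((Complex.re ∘ herglotzRieszKernel 0 w) • fun _ : ℂ => (1 : ℂ))) =
        Complex.re ∘ herglotzRieszKernel 0 w := by
      funext z
      simp
    rw [h4] at h3
    simpa using h3
  -- comparison of `A` with polynomials
  have hApol : ∀ (h : Polynomial ℂ) (δ : ℝ), (∀ z ∈ sphere (0 : ℂ) r, |u z - (h.eval z).re| ≤ δ) →
      ∀ w ∈ ball (0 : ℂ) r, |(A w).re - (h.eval w).re| ≤ δ := by
    intro h δ hδ w hw
    have hhd : DiffContOnCl ℂ (fun z => h.eval z) (ball 0 r) := h.differentiable.diffContOnCl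
    have h1 := hhd.circleAverage_re_herglotzRieszKernel_smul hw
    have hk := hkerc w hw
    have h2 : CircleIntegrable ((Complex.re ∘ herglotzRieszKernel 0 w) • fun z => h.eval z) 0 r :=
      (hk.smul h.continuous.continuousOn).circleIntegrable hr.le
    have h3 := Complex.reCLM.circleAverage_comp_comm h2
    rw [h1] at h3
    have h4 : (⇑Complex.reCLM ∘ ((Complex.re ∘ herglotzRieszKernel 0 w) • fun z => h.eval z)) =
        (Complex.re ∘ herglotzRieszKernel 0 w) • fun z => (h.eval z).re := by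
      funext z
      simp
    rw [h4, Complex.reCLM_apply] at h3
    have h5 : (A w).re = circleAverage ((Complex.re ∘ herglotzRieszKernel 0 w) • u) 0 r :=
      re_circleAverage_herglotzRieszKernel_smul hui hw
    have i1 : CircleIntegrable ((Complex.re ∘ herglotzRieszKernel 0 w) • u) 0 r :=
      (hk.smul hus).circleIntegrable hr.le
    have i2 : CircleIntegrable ((Complex.re ∘ herglotzRieszKernel 0 w) • fun z => (h.eval z).re) 0 r :=
      (hk.smul (Complex.continuous_re.comp h.continuous).continuousOn).circleIntegrable hr.le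
    have i3 : CircleIntegrable (Complex.re ∘ herglotzRieszKernel 0 w) 0 r := hk.circleIntegrable hr.le
    rw [h5, ← h3, ← circleAverage_sub i1 i2]
    have hcd : ∀ s : ℝ, circleAverage (fun z => s * (Complex.re ∘ herglotzRieszKernel 0 w) z) 0 r = s := by
      intro s
      have := circleAverage_fun_smul (a := s) (f := Complex.re ∘ herglotzRieszKernel 0 w) (c := 0)
        (R := r)
      simp only [smul_eq_mul] at this
      rw [this, hker1 w hw, mul_one]
    rw [abs_le]
    constructor
    · rw [← hcd (-δ)]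
      refine circleAverage_mono ((continuousOn_const.mul hk).circleIntegrable hr.le) (i1.sub i2) ?_
      intro z hz
      rw [abs_of_pos hr] at hz
      have h6 := hker0 w hw z hz
      have h7 := (abs_le.1 (hδ z hz)).1
      simp only [Pi.sub_apply, Pi.mul_apply, smul_eq_mul, Function.comp_apply] at h6 ⊢
      nlinarith
    · rw [← hcd δ]
      refine circleAverage_mono (i1.sub i2) ((continuousOn_const.mul hk).circleIntegrable hr.le) ?_
      intro z hz
      rw [abs_of_pos hr] at hz
      have h6 := hker0 w hw z hz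
      have h7 := (abs_le.1 (hδ z hz)).2
      simp only [Pi.sub_apply, Pi.mul_apply, smul_eq_mul, Function.comp_apply] at h6 ⊢
      nlinarith
  -- equality off the zeros of `P`
  have hoff : ∀ z ∈ ball (0 : ℂ) r, P z ≠ 0 → (f z).re = (A z).re := by
    intro z hz hPz
    refine eq_of_abs_sub_le_all fun ε hε => ?_
    obtain ⟨h, hh⟩ := exists_poly_approx hr hus (half_pos hε)
    have h1 := compare hr hf hP hfd hPd h (δ := ε / 2)
      (fun y hy => ((abs_lt.1 (hh y hy)).2).le) z hz hPz
    have h2 := compare (f := fun z => -f z) hr hf.neg hP (fun z hz hp => (hfd z hz hp).neg) hPd (-h)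
      (δ := ε / 2) (fun y hy => by
        have := (abs_lt.1 (hh y hy)).1
        simp only [Complex.neg_re, Polynomial.eval_neg]
        simp only [hu] at this
        linarith) z hz hPz
    simp only [Complex.neg_re, Polynomial.eval_neg] at h2
    have h3 := hApol h (ε / 2) (fun y hy => (hh y hy).le) z hz
    obtain ⟨h4, h5⟩ := abs_le.1 h3
    rw [abs_le]
    constructor <;> linarith
  intro z hz
  have hcl := hden z hz
  have hAc : ContinuousAt (fun z => (A z).re) z :=
    Complex.continuous_re.continuousAt.comp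
      ((hAd.differentiableAt (isOpen_ball.mem_nhds hz)).continuousAt)
  have huz : ContinuousAt u z :=
    huc.continuousAt (mem_of_superset (isOpen_ball.mem_nhds hz) ball_subset_closedBall)
  have hfr : ∃ᶠ y in 𝓝 z, u y - (A y).re = 0 := by
    rw [mem_closure_iff_frequently] at hcl
    exact hcl.mono fun y hy => by
      show (f y).re - (A y).re = 0
      rw [hoff y hy.1 hy.2, sub_self]
  have hlim : Tendsto (fun y => u y - (A y).re) (𝓝 z) (𝓝 (u z - (A z).re)) := huz.sub hAc
  have : u z - (A z).re = 0 := by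
    by_contra hne
    exact hfr (hlim.eventually_ne hne)
  show u z = _
  linarith

/-- **Radó's theorem on a disc.** -/
theorem rado_disc (hr : 0 < r) (hf : ContinuousOn f (closedBall 0 r))
    (hP : ContinuousOn P (closedBall 0 r))
    (hfd : ∀ z ∈ ball (0 : ℂ) r, P z ≠ 0 → DifferentiableAt ℂ f z)
    (hPd : ∀ z ∈ ball (0 : ℂ) r, P z ≠ 0 → DifferentiableAt ℂ P z)
    (hden : ∀ z ∈ ball (0 : ℂ) r, z ∈ closure {y | y ∈ ball (0 : ℂ) r ∧ P y ≠ 0}) :
    DifferentiableOn ℂ f (ball 0 r) := by
  obtain ⟨A, hA, hA2⟩ := re_eq hr hf hP hfd hPd hden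
  obtain ⟨B, hB, hB2⟩ := re_eq (f := fun z => -Complex.I * f z) hr (continuousOn_const.mul hf) hP
    (fun z hz hp => (hfd z hz hp).const_mul _) hPd hden
  have hB3 : ∀ z ∈ ball (0 : ℂ) r, (f z).im = (B z).re := by
    intro z hz
    have := hB2 z hz
    simpa using this
  -- a point off the zeros of `P`
  obtain ⟨y₀, hy₀, hPy₀⟩ : ∃ y₀ ∈ ball (0 : ℂ) r, P y₀ ≠ 0 := by
    obtain ⟨y, hy⟩ := closure_nonempty_iff.1 ⟨0, hden 0 (mem_ball_self hr)⟩
    exact ⟨y, hy.1, hy.2⟩
  have hPc : ContinuousAt P y₀ :=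
    hP.continuousAt (mem_of_superset (isOpen_ball.mem_nhds hy₀) ball_subset_closedBall)
  have hev : ∀ᶠ y in 𝓝 y₀, y ∈ ball (0 : ℂ) r ∧ P y ≠ 0 := by
    filter_upwards [isOpen_ball.mem_nhds hy₀, hPc.eventually_ne hPy₀] with y h1 h2
    exact ⟨h1, h2⟩
  obtain ⟨s, hs, hsb⟩ := Metric.eventually_nhds_iff_ball.1 hev
  -- `f - A` has real part zero near `y₀`
  have hg : AnalyticOnNhd ℂ (fun z => f z - A z) (ball y₀ s) := by
    refine DifferentiableOn.analyticOnNhd (fun z hz => ?_) isOpen_ball
    exact ((hfd z (hsb z hz).1 (hsb z hz).2).sub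
      (hA.differentiableAt (isOpen_ball.mem_nhds (hsb z hz).1))).differentiableWithinAt
  have hconst : ∃ w : ℂ, ∀ z ∈ ball y₀ s, f z - A z = w := by
    rcases hg.is_constant_or_isOpen (convex_ball _ _).isPreconnected with h | h
    · exact h
    · exfalso
      have h1 := h (ball y₀ s) Subset.rfl isOpen_ball
      have h2 : f y₀ - A y₀ ∈ (fun z => f z - A z) '' ball y₀ s := ⟨y₀, mem_ball_self hs, rfl⟩
      obtain ⟨ε, hε, hεb⟩ := Metric.isOpen_iff.1 h1 _ h2
      have h3 : f y₀ - A y₀ + (ε / 2 : ℝ) ∈ ball (f y₀ - A y₀) ε := by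
        rw [mem_ball, dist_eq_norm, add_sub_cancel_left, Complex.norm_real,
          Real.norm_of_nonneg (by positivity)]
        linarith
      obtain ⟨z, hz, hz2⟩ := hεb h3
      have h4 : (f z - A z).re = 0 := by
        rw [Complex.sub_re, hA2 z (hsb z hz).1, sub_self]
      have h5 : (f y₀ - A y₀).re = 0 := by
        rw [Complex.sub_re, hA2 y₀ hy₀, sub_self]
      simp only at hz2
      rw [hz2, Complex.add_re, h5, Complex.ofReal_re] at h4
      linarith
  obtain ⟨w, hw⟩ := hconst
  -- `B + i A` is constant near `y₀`, hence on the disc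
  have hBA : AnalyticOnNhd ℂ (fun z => B z + Complex.I * A z) (ball 0 r) := by
    refine DifferentiableOn.analyticOnNhd (fun z hz => ?_) isOpen_ball
    exact ((hB.differentiableAt (isOpen_ball.mem_nhds hz)).add
      ((hA.differentiableAt (isOpen_ball.mem_nhds hz)).const_mul _)).differentiableWithinAt
  have hre : ∀ z ∈ ball y₀ s, (B z + Complex.I * A z).re = w.im := by
    intro z hz
    have h1 := hw z hz
    have h2 := hB3 z (hsb z hz).1
    have h3 : (f z).im - (A z).im = w.im := by rw [← h1, Complex.sub_im]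
    simp only [Complex.add_re, Complex.mul_re, Complex.I_re, Complex.I_im, zero_mul, one_mul,
      zero_sub]
    linarith
  have hsub : ball y₀ s ⊆ ball (0 : ℂ) r := fun z hz => (hsb z hz).1
  have hconst2 : ∃ w' : ℂ, ∀ z ∈ ball y₀ s, B z + Complex.I * A z = w' := by
    rcases (hBA.mono hsub).is_constant_or_isOpen (convex_ball _ _).isPreconnected with h | h
    · exact h
    · exfalso
      have h1 := h (ball y₀ s) Subset.rfl isOpen_ball
      have h2 : B y₀ + Complex.I * A y₀ ∈ (fun z => B z + Complex.I * A z) '' ball y₀ s :=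
        ⟨y₀, mem_ball_self hs, rfl⟩
      obtain ⟨ε, hε, hεb⟩ := Metric.isOpen_iff.1 h1 _ h2
      have h3 : B y₀ + Complex.I * A y₀ + (ε / 2 : ℝ) ∈ ball (B y₀ + Complex.I * A y₀) ε := by
        rw [mem_ball, dist_eq_norm, add_sub_cancel_left, Complex.norm_real,
          Real.norm_of_nonneg (by positivity)]
        linarith
      obtain ⟨z, hz, hz2⟩ := hεb h3
      have h4 := hre z hz
      have h5 := hre y₀ (mem_ball_self hs)
      simp only at hz2
      rw [hz2, Complex.add_re, h5, Complex.ofReal_re] at h4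
      linarith
  obtain ⟨w', hw'⟩ := hconst2
  have hall : ∀ z ∈ ball (0 : ℂ) r, B z + Complex.I * A z = w' := by
    have h1 : AnalyticOnNhd ℂ (fun z => B z + Complex.I * A z - w') (ball 0 r) :=
      hBA.sub analyticOnNhd_const
    have h2 := h1.eqOn_zero_of_preconnected_of_eventuallyEq_zero
      (convex_ball _ _).isPreconnected hy₀ (by
        filter_upwards [ball_mem_nhds y₀ hs] with z hz
        simp [hw' z hz])
    intro z hz
    have := h2 hz
    simp only [Pi.zero_apply] at this
    exact sub_eq_zero.1 this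
  have hfin : ∀ z ∈ ball (0 : ℂ) r, f z = A z + Complex.I * (w'.re : ℂ) := by
    intro z hz
    have h1 := hall z hz
    have h2 : (B z).re - (A z).im = w'.re := by
      rw [← h1]; simp; ring
    apply Complex.ext
    · rw [hA2 z hz]; simp
    · rw [hB3 z hz]; simp; linarith
  exact (hA.add (differentiableOn_const _)).congr hfin

end

end Vale.Agent.P284.H383.Tr
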